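import Vale.Agent.P352W.Gl.Ps0
import Vale.Agent.P352.H15.NPDefs

/-!
# P352W: the list of the properties of the free field which give all hypotheses (helper49)
-/

set_option autoImplicit false

open MeasureTheory Filter Topology

namespace Vale.Agent.P352W

open P352 GF H246
open P352.H15 (IsSim)
open P352.ND (cur)

variable {D : Type*} [NormedAddCommGroup D] [InnerProductSpace ℂ D]

/-- the fields of the model -/
def Fp (φ : Fld D) (T : Ix → Ix → Fld D) (B : Fld D) : Prop := B = φ ∨ ∃ m n, B = T m n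

/-- what the Fock space construction delivers -/
structure Free (Ω : D) (φ : Fld D) (T : Ix → Ix → Fld D) (U : ℝ → (Ix → V) → V → D → D) :
    Prop where
  norm_vac : ‖Ω‖ = 1
  gen : ∀ S : Submodule ℂ D, Ω ∈ S →
    (∀ B f v, Fp φ T B → IsTest f → v ∈ S → B f v ∈ S) → ∀ v, v ∈ S
  lin : ∀ B f g c v, Fp φ T B → IsTest f → IsTest g →
    B (fun x => f x + c * g x) v = B f v + (c : ℂ) • B g v
  herm : ∀ B f v w, Fp φ T B → IsTest f → inner ℂ (B f v) w = inner ℂ v (B (bar f) w)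
  cont : ∀ B v, Fp φ T B → Continuous fun g => B (ev g) v
  ps : ∀ m n, PS φ (T m n)
  loc0 : ∀ f g v, IsTest f → IsTest g → Sep f g → φ f (φ g v) = φ g (φ f v)
  fil : ∃ P : ℕ → D → Prop, (∀ v, ∃ n, P n v) ∧ ∀ g, IsTest g →
    (∀ n v, P n v → P (n + 1) (φ g v)) ∧
      ∃ C : ℝ, ∀ n v, P n v → ‖φ g v‖ ≤ C * √((n : ℝ) + 1) * ‖v‖
  U_inner : ∀ s L a v w, 0 < s → IsLor L → inner ℂ (U s L a v) (U s L a w) = inner ℂ v w
  U_vac : ∀ s L a, 0 < s → IsLor L → U s L a Ω = Ω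
  U_mul : ∀ s L a s' L' a' v, 0 < s → 0 < s' → IsLor L → IsLor L' →
    U s L a (U s' L' a' v) = U (s * s') (fun m => sim 1 L 0 (L' m)) (sim s L a a') v
  cov_phi : ∀ s L a f v, 0 < s → IsLor L → IsTest f → φ f (U s L a v) =
    ((s ^ 3 : ℝ) : ℂ) • U s L a (φ (fun x => f (sim s L a x)) v)
  cov_T : ∀ m n s L a f v, 0 < s → IsLor L → IsTest f → T m n f (U s L a v) =
    ∑ k, ∑ l, (L k m * L l n : ℂ) • U s L a (T k l (fun x => f (sim s L a x)) v)
  symm : ∀ m n f v, IsTest f → T m n f v = T n m f v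
  conserved : ∀ n f v, IsTest f → ∑ m, T m n (pd m f) v = 0
  spec : ∀ v, ∃ ν : Measure V, IsFiniteMeasure ν ∧ (∀ᵐ p ∂ν, 0 ≤ p o ∧ 0 ≤ GF.mdot p p) ∧
    ν.real {p | p o = 0} ≤ ‖inner ℂ Ω v‖ ^ 2 ∧
    ∀ a, inner ℂ v (U 1 one a v) = ∫ p, Complex.exp (Complex.I * GF.mdot p a) ∂ν
  chg : ∀ F X (r : ℝ), IsCutoff F → IsSim 0 X → ∃ R₀ : ℝ, ∀ R ≥ R₀, ∀ g v,
    In (Metric.ball 0 r) g → cur T X (F R) (φ g v) - φ g (cur T X (F R) v) =
      Complex.I • φ (fun x => ∑ n, (X x n : ℂ) * pd n g x) v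
  nz : ∃ f, IsTest f ∧ tr T f Ω ≠ 0

theorem Free.raw {Ω : D} {φ : Fld D} {T : Ix → Ix → Fld D} {U : ℝ → (Ix → V) → V → D → D}
    (h : Free Ω φ T U) : Raw φ (Fp φ T) where
  phi := Or.inl rfl
  herm := h.herm
  cont := h.cont
  ps := by
    rintro B (rfl | ⟨m, n, rfl⟩)
    · exact PS.self _
    · exact h.ps m n

end Vale.Agent.P352W
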