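import Vale.Agent.P352W.Fin
import Vale.Agent.P352W.Eb.All

/-!
# P352W: the free massless scalar field satisfies all hypotheses, graded form (helper85)
-/

set_option autoImplicit false

namespace Vale.Agent.P352W

open P352 GF H246 H15 BW P352X
open P352.ND (PCh)
open UniformSpace (Completion)

theorem witnessG : ∃ (D : Type) (_ : NormedAddCommGroup D) (_ : InnerProductSpace ℂ D)
    (Q : Theory D) (G : D → D) (T : Ix → Ix → Fld D) (A : (V → V) → D → D)
    (Γ : Completion D →L[ℂ] Completion D) (N : Set V → VonNeumannAlgebra (Completion D)),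
      Stress0 Q T ∧ PCh Q T A ∧ MfAll Q ∧ FSL Q ∧ LNg Q G A Γ N ∧ L.UVac Q ∧ EBd Q ∧
      (∃ φ, Q.IsScalar φ 1 ∧ ∃ f, IsTest f ∧ φ f Q.vac ≠ 0) ∧
      ¬FiniteDimensional ℂ (Completion D) ∧ ∃ f, IsTest f ∧ tr T f Q.vac ≠ 0 :=
  witG_of free (Eb.eb fun _ _ => Fk.Cov.wd_gm one_pos isLor_one)

end Vale.Agent.P352W
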