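import Vale.Agent.P352W.St
import Vale.Agent.P352W.Kr.Nz
import Vale.Agent.P352W.Fk.Ud
import Vale.Agent.P352W.Fk.Hm
import Vale.Agent.P352W.Ap.Ps
import Vale.Agent.P352W.Fk.Chg

/-!
# P352W: the free field has the properties `Free` (helper85)
-/

set_option autoImplicit false

namespace Vale.Agent.P352W

open Fk

theorem free_of (noe : Ch.Br.NOE) : Free Ω Ph Tm UU where
  norm_vac := Hm.norm_vac
  gen := Hm.gen
  lin := Ct.lin
  herm := Hm.herm
  cont := Ct.cont
  ps := Ap.ps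
  loc0 := Hm.loc0
  fil := Ap.fil
  U_inner := Ud.U_inner
  U_vac := Ud.U_vac
  U_mul := Ud.U_mul
  cov_phi := Ud.cov_phi
  cov_T := Ud.cov_T
  symm := Kr.symm
  conserved := Kr.conserved
  spec := Ud.spec
  chg := chg_of noe (fun _ => Ct.wd_nice) Hm.ex_mk (fun _ _ => Hm.Ph_mk) fun m n _ _ => Hm.Tm_mk m n
  nz := Kr.nz

end Vale.Agent.P352W
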