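import Vale.Agent.P352W.FinH
import Vale.Agent.P352W.Gl.Wt
import Vale.Agent.P352W.Ch.Nc

/-!
# P352W: the free massless scalar field satisfies all hypotheses (helper85)
-/

set_option autoImplicit false

namespace Vale.Agent.P352W

open P352 GF H246 H15 BW P352X
open P352.ND (PCh)
open UniformSpace (Completion)

theorem free : Free Fk.Ω Fk.Ph Fk.Tm Fk.UU := free_of Ch.Nc.noe

theorem witness : ∃ (D : Type) (_ : NormedAddCommGroup D)
    (_ : InnerProductSpace ℂ D) (Q : Theory D) (T : Ix → Ix → Fld D) (A : (V → V) → D → D)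
    (N : Set V → VonNeumannAlgebra (Completion D)), Stress0 Q T ∧ PCh Q T A ∧ TfGen Q ∧ MfAll Q ∧
      FSL Q ∧ LNm Q A N ∧ L.UVac Q ∧
      (∃ φ, Q.IsScalar φ 1 ∧ ∃ f, IsTest f ∧ φ f Q.vac ≠ 0) ∧
      ¬FiniteDimensional ℂ (Completion D) ∧ ∃ f, IsTest f ∧ tr T f Q.vac ≠ 0 := wit_of free

end Vale.Agent.P352W
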